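/-
P163: at every temperature and for every n ≥ 3, spin correlations of the two-dimensional O(n) model
decay algebraically with every exponent below n / (16 β), uniformly over finite sets with free
boundary conditions and over rectangular tori.
-/
import Vale.Agent.P163.Free.Defs
import Vale.Agent.P163.Free.Main
import Vale.Agent.P163.Free.Lattice

open MeasureTheory Filter Topology
open scoped InnerProductSpace

namespace Vale.Agent.Results.P163.DecayLinearInN

open Vale.Agent.P163.Free Vale.Agent.P163.Decay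

theorem result (n : ℕ) (hn : 3 ≤ n) (β : ℝ) (hβ : 0 < β) (p : ℝ)
    (hp : p < (n : ℝ) / (16 * β)) :
    ∃ C : ℝ,
      (∀ (box : Finset (ℤ × ℤ)) (x y : box),
        |twoPoint n β (boxBondSum n box) x y| ≤ C * (1 + (supDist x.1 y.1 : ℝ)) ^ (-p)) ∧
      (∀ (a b : ℕ) [NeZero a] [NeZero b] (x y : ZMod a × ZMod b),
        |twoPoint n β (torusBondSum n a b) x y| ≤ C * (1 + (torusDist a b x y : ℝ)) ^ (-p)) := by
  obtain ⟨C₀, hC₀⟩ := decay (n := n) (by omega) hβ hp
  obtain ⟨i, j, hij⟩ : ∃ i j : Fin n, i ≠ j :=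
    ⟨⟨0, by omega⟩, ⟨1, by omega⟩, by simp [Fin.ext_iff]⟩
  refine ⟨max C₀ 0 * (2 : ℝ) ^ |p|, ?_, ?_⟩
  · intro box x y
    classical
    have h := hC₀ (fun b : BoxBond box => b.1.1) (fun b => b.1.2) _ _
      (box_geo box (supDist x.1 y.1)) i j hij x y
    set u : BoxBond box → box := fun b => b.1.1 with hu
    set v : BoxBond box → box := fun b => b.1.2 with hv
    have hZ := pf_pos u v (by omega : 0 < n) β i j 0
    have hH : ∀ σ : box → Sn n, boxBondSum n box σ = ham u v σ := by
      intro σ
      simp only [boxBondSum, ham, hu, hv]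
      rw [← Fintype.sum_prod_type', ← Finset.sum_filter]
      exact Finset.sum_subtype _ (by simp) _
    have e : twoPoint n β (boxBondSum n box) x y
        = (∫ σ, ⟪(σ x : EuclideanSpace ℝ (Fin n)), σ y⟫_ℝ * wt u v β i j 0 σ ∂cm box n)
          / pf u v β i j (0 : box → ℝ) := by
      simp [twoPoint, spinMeasure, wt, pf, hH]
    rw [e, abs_div, abs_of_pos hZ, div_le_iff₀ hZ]
    simp only [min_self] at h
    refine h.trans (mul_le_mul_of_nonneg_right (mul_le_mul_of_nonneg_right ?_ (by positivity)) hZ.le)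
    exact (le_max_left _ _).trans
      (le_mul_of_one_le_right (le_max_right _ _) (Real.one_le_rpow one_le_two (abs_nonneg p)))
  · intro a b _ _ x y
    have h := hC₀ _ _ _ _ (torus_geo (a := a) (b := b)) i j hij x y
    set u : (ZMod a × ZMod b) × Bool → ZMod a × ZMod b := fun e => e.1 with hu
    set v : (ZMod a × ZMod b) × Bool → ZMod a × ZMod b :=
      fun e => e.1 + if e.2 then (1, 0) else (0, 1) with hv
    have hZ := pf_pos u v (by omega : 0 < n) β i j 0
    have hH : ∀ σ : ZMod a × ZMod b → Sn n, torusBondSum n a b σ = ham u v σ := fun σ => by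
      simp [torusBondSum, ham, hu, hv, Fintype.sum_prod_type]
    have e : twoPoint n β (torusBondSum n a b) x y
        = (∫ σ, ⟪(σ x : EuclideanSpace ℝ (Fin n)), σ y⟫_ℝ * wt u v β i j 0 σ
            ∂cm (ZMod a × ZMod b) n) / pf u v β i j (0 : ZMod a × ZMod b → ℝ) := by
      simp [twoPoint, spinMeasure, wt, pf, hH]
    rw [e, abs_div, abs_of_pos hZ, div_le_iff₀ hZ]
    refine h.trans (mul_le_mul_of_nonneg_right ?_ hZ.le)
    set d := torusDist a b x y with hd
    set d' := min (rhoT x y) (min (a / 2) (b / 2) - 1) with hd'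
    have h1 : d' ≤ d ∧ d ≤ 2 * d' + 1 := by
      simp only [hd, hd', torusDist, rhoT]
      omega
    have hd1 : (d' : ℝ) ≤ d := by exact_mod_cast h1.1
    have hd2 : (d : ℝ) ≤ 2 * (d' : ℝ) + 1 := by exact_mod_cast h1.2
    have key : (1 + (d' : ℝ)) ^ (-p) ≤ (2 : ℝ) ^ |p| * (1 + (d : ℝ)) ^ (-p) := by
      rcases le_or_gt p 0 with hp0 | hp0
      · exact (Real.rpow_le_rpow (by positivity) (by linarith) (by linarith)).trans
          (le_mul_of_one_le_left (by positivity) (Real.one_le_rpow one_le_two (abs_nonneg p)))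
      · rw [abs_of_pos hp0, Real.rpow_neg (by positivity), Real.rpow_neg (by positivity),
          ← div_eq_mul_inv, ← Real.div_rpow (by norm_num) (by positivity), ← Real.inv_rpow
          (by positivity)]
        refine Real.rpow_le_rpow (by positivity) ?_ hp0.le
        rw [inv_eq_one_div, div_le_div_iff₀ (by positivity) (by positivity)]
        linarith
    calc C₀ * (1 + (d' : ℝ)) ^ (-p) ≤ max C₀ 0 * (1 + (d' : ℝ)) ^ (-p) :=
          mul_le_mul_of_nonneg_right (le_max_left _ _) (by positivity)
      _ ≤ max C₀ 0 * ((2 : ℝ) ^ |p| * (1 + (d : ℝ)) ^ (-p)) :=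
          mul_le_mul_of_nonneg_left key (le_max_right _ _)
      _ = _ := by ring

end Vale.Agent.Results.P163.DecayLinearInN
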